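import Mathlib

/-! Second moments of random colourings of the cells. -/

namespace Vale.Agent.P078

variable {ι : Type*} [Fintype ι] [DecidableEq ι]

lemma sum_eq_zero_of_fiber {α : Type*} [Fintype α] [DecidableEq α] (i : ι) (G : (ι → α) → ℝ)
    (h : ∀ f, ∑ a, G (Function.update f i a) = 0) : ∑ f, G f = 0 := by
  rw [← Equiv.sum_comp (Equiv.funSplitAt i α).symm G, Fintype.sum_prod_type_right]
  refine Finset.sum_eq_zero fun g _ => ?_
  rcases isEmpty_or_nonempty α with hα | ⟨⟨a0⟩⟩
  · simp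
  · rw [← h ((Equiv.funSplitAt i α).symm (a0, g))]
    refine Finset.sum_congr rfl fun a _ => congrArg G ?_
    funext j
    by_cases hj : j = i
    · subst hj; simp [Equiv.funSplitAt, Equiv.piSplitAt]
    · simp [Equiv.funSplitAt, Equiv.piSplitAt, hj]

/-- Centred indicator that two cells receive the same colour. -/
noncomputable def gap (r : ℕ) (p : ι × ι) (f : ι → Fin r) : ℝ :=
  if p.1 = p.2 then 0 else (if f p.1 = f p.2 then 1 else 0) - 1 / r

lemma gap_swap (r : ℕ) (i j : ι) (f : ι → Fin r) : gap r (i, j) f = gap r (j, i) f := by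
  simp [gap, eq_comm]

lemma gap_cov_aux {r : ℕ} (hr : 0 < r) {i j k l : ι} (hij : i ≠ j) (hik : i ≠ k) (hil : i ≠ l) :
    ∑ f : ι → Fin r, gap r (i, j) f * gap r (k, l) f = 0 := by
  refine sum_eq_zero_of_fiber i _ fun f => ?_
  have h2 : ∀ a, gap r (k, l) (Function.update f i a) = gap r (k, l) f := fun a => by
    simp [gap, Ne.symm hik, Ne.symm hil]
  simp only [h2, ← Finset.sum_mul]
  have : ∑ a, gap r (i, j) (Function.update f i a) = 0 := by
    simp [gap, hij, Ne.symm hij, Finset.sum_sub_distrib]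
    field_simp
    ring
  rw [this, zero_mul]

lemma gap_cov {r : ℕ} (hr : 0 < r) (p q : ι × ι) (h1 : p ≠ q) (h2 : p ≠ q.swap) :
    ∑ f : ι → Fin r, gap r p f * gap r q f = 0 := by
  obtain ⟨i, j⟩ := p
  obtain ⟨k, l⟩ := q
  by_cases hij : i = j
  · simp [gap, hij]
  simp only [ne_eq, Prod.swap_prod_mk, Prod.mk.injEq, not_and] at h1 h2
  by_cases hi : i ≠ k ∧ i ≠ l
  · exact gap_cov_aux hr hij hi.1 hi.2
  have hj : j ≠ k ∧ j ≠ l := by
    constructor <;> intro h <;> simp only [not_and, ne_eq, not_not] at hi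
    · rcases eq_or_ne i k with hk | hk
      · exact hij (hk.trans h.symm)
      · exact h2 (hi hk) h
    · rcases eq_or_ne i k with hk | hk
      · exact h1 hk h
      · exact hij ((hi hk).trans h.symm)
  simp only [gap_swap r i j]
  exact gap_cov_aux hr (Ne.symm hij) hj.1 hj.2

lemma abs_gap_le {r : ℕ} (hr : 0 < r) (p : ι × ι) (f : ι → Fin r) : |gap r p f| ≤ 1 := by
  have h1 : (1:ℝ) / r ≤ 1 := by
    rw [div_le_one (by exact_mod_cast hr)]; exact_mod_cast hr
  have h0 : (0:ℝ) ≤ 1 / r := by positivity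
  unfold gap
  split_ifs <;> rw [abs_le] <;> constructor <;> linarith

lemma second_moment {r : ℕ} (hr : 0 < r) (a : ι × ι → ℝ) :
    ∑ f : ι → Fin r, (∑ p, gap r p f * a p) ^ 2 ≤
      2 * (Fintype.card (ι → Fin r) : ℝ) * ∑ p, a p ^ 2 := by
  set N : ℝ := (Fintype.card (ι → Fin r) : ℝ)
  have hN : 0 ≤ N := Nat.cast_nonneg _
  let C : ι × ι → ι × ι → ℝ := fun p q => ∑ f : ι → Fin r, gap r p f * gap r q f
  have hC : ∀ p q, |C p q| ≤ N := fun p q => by
    refine (Finset.abs_sum_le_sum_abs _ _).trans ?_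
    refine (Finset.sum_le_card_nsmul _ _ 1 fun f _ => ?_).trans (by simp [N])
    rw [abs_mul]
    exact mul_le_one₀ (abs_gap_le hr _ _) (abs_nonneg _) (abs_gap_le hr _ _)
  have e : ∑ f : ι → Fin r, (∑ p, gap r p f * a p) ^ 2 = ∑ p, ∑ q, C p q * (a p * a q) := by
    simp only [sq, Finset.sum_mul, Finset.mul_sum, C]
    rw [Finset.sum_comm]
    refine Finset.sum_congr rfl fun p _ => ?_
    rw [Finset.sum_comm]
    refine Finset.sum_congr rfl fun q _ => Finset.sum_congr rfl fun f _ => ?_
    ring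
  rw [e, Finset.mul_sum]
  have bound : ∀ p, ∑ q, C p q * (a p * a q) ≤ N * a p ^ 2 + N * ((a p ^ 2 + a p.swap ^ 2) / 2) := by
    intro p
    have term : ∀ q, C p q * (a p * a q) ≤ N * ((a p ^ 2 + a q ^ 2) / 2) := fun q => by
      calc C p q * (a p * a q) ≤ |C p q| * |a p * a q| := by
            rw [← abs_mul]; exact le_abs_self _
        _ ≤ N * ((a p ^ 2 + a q ^ 2) / 2) := by
            refine mul_le_mul (hC p q) (abs_le.2 ⟨?_, ?_⟩) (abs_nonneg _) hN
            · nlinarith [sq_nonneg (a p + a q)]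
            · nlinarith [sq_nonneg (a p - a q)]
    calc ∑ q, C p q * (a p * a q)
        ≤ ∑ q, ((if q = p then N * ((a p ^ 2 + a q ^ 2) / 2) else 0) +
            (if q = p.swap then N * ((a p ^ 2 + a q ^ 2) / 2) else 0)) := by
          refine Finset.sum_le_sum fun q _ => ?_
          have nn : 0 ≤ N * ((a p ^ 2 + a q ^ 2) / 2) := by positivity
          by_cases h1 : q = p
          · have := term q
            split_ifs <;> linarith
          by_cases h2 : q = p.swap
          · have := term q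
            split_ifs <;> linarith
          have : C p q = 0 := gap_cov hr p q (Ne.symm h1) (fun h => h2 (by rw [h, Prod.swap_swap]))
          simp [this, h1, h2]
      _ = _ := by
          rw [Finset.sum_add_distrib, Finset.sum_ite_eq', Finset.sum_ite_eq']
          simp
  refine (Finset.sum_le_sum fun p _ => bound p).trans (le_of_eq ?_)
  rw [Finset.sum_add_distrib, ← Finset.mul_sum, ← Finset.mul_sum, ← Finset.mul_sum,
    ← Finset.sum_div, Finset.sum_add_distrib]
  have : ∑ p : ι × ι, a p.swap ^ 2 = ∑ p, a p ^ 2 :=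
    Equiv.sum_comp (Equiv.prodComm ι ι) fun p => a p ^ 2
  rw [this]; ring

lemma second_moment_complex {r : ℕ} (hr : 0 < r) (w : ι × ι → ℂ) :
    ∑ f : ι → Fin r, ‖∑ p, (gap r p f : ℂ) * w p‖ ^ 2 ≤
      2 * (Fintype.card (ι → Fin r) : ℝ) * ∑ p, ‖w p‖ ^ 2 := by
  have h := add_le_add (second_moment hr fun p => (w p).re) (second_moment hr fun p => (w p).im)
  rw [← mul_add, ← Finset.sum_add_distrib, ← Finset.sum_add_distrib] at h
  refine le_trans (le_of_eq (Finset.sum_congr rfl fun f _ => ?_)) (h.trans (le_of_eq ?_))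
  · rw [Complex.sq_norm, Complex.normSq_apply]; simp [sq]
  · congr 1
    refine Finset.sum_congr rfl fun p _ => ?_
    rw [Complex.sq_norm, Complex.normSq_apply]; simp [sq]

end Vale.Agent.P078
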