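import Mathlib

/-! Partitions in a maximal abelian selfadjoint algebra of operators on a Hilbert space. -/

namespace Vale.Agent.P078

open scoped InnerProductSpace

variable {H : Type*} [NormedAddCommGroup H] [InnerProductSpace ℂ H] [CompleteSpace H]

/-- `(ε,r)` so-pavability of `x` over `A` inside all bounded operators on `H`. -/
def SoPavable (A : StarSubalgebra ℂ (H →L[ℂ] H)) (x : H →L[ℂ] H) (ε : ℝ) (r : ℕ) : Prop :=
  ∀ (F : Finset H) (δ : ℝ), 0 < δ →
    ∃ (P : Fin r → (H →L[ℂ] H)) (a q : H →L[ℂ] H),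
      (∀ i, P i ∈ A ∧ IsStarProjection (P i)) ∧ (∀ i j, i ≠ j → P i * P j = 0) ∧
      ∑ i, P i = 1 ∧ a ∈ A ∧ IsSelfAdjoint a ∧ ‖a‖ ≤ ‖x‖ ∧ IsStarProjection q ∧
      (∀ ξ ∈ F, ‖(1 - q) ξ‖ < δ) ∧
      ‖q * ((∑ i, P i * x * P i) - a) * q‖ ≤ ε * ‖x‖

/-- A partition of `e` into projections of `A`. -/
structure IsPart (A : StarSubalgebra ℂ (H →L[ℂ] H)) (e : H →L[ℂ] H) {ι : Type*} [Fintype ι]
    (c : ι → (H →L[ℂ] H)) : Prop where
  mem : ∀ i, c i ∈ A
  proj : ∀ i, IsStarProjection (c i)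
  orth : ∀ i j, i ≠ j → c i * c j = 0
  sum_eq : ∑ i, c i = e

variable {A : StarSubalgebra ℂ (H →L[ℂ] H)}

lemma comm_of_mem (hA : Set.centralizer (A : Set (H →L[ℂ] H)) = A) {a b : H →L[ℂ] H}
    (ha : a ∈ A) (hb : b ∈ A) : Commute a b := by
  have h : b ∈ Set.centralizer (A : Set (H →L[ℂ] H)) := by rw [hA]; exact hb
  exact h a ha

lemma mem_of_comm (hA : Set.centralizer (A : Set (H →L[ℂ] H)) = A) {a : H →L[ℂ] H}
    (h : ∀ g ∈ A, g * a = a * g) : a ∈ A := by
  have : a ∈ Set.centralizer (A : Set (H →L[ℂ] H)) := h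
  rw [hA] at this
  exact this

lemma op_mul_apply (a b : H →L[ℂ] H) (v : H) : (a * b) v = a (b v) := rfl

lemma proj_apply_apply {p : H →L[ℂ] H} (hp : IsStarProjection p) (v : H) : p (p v) = p v := by
  rw [← op_mul_apply, hp.isIdempotentElem]

lemma sa_inner {p : H →L[ℂ] H} (hp : IsSelfAdjoint p) (u v : H) :
    ⟪p u, v⟫_ℂ = ⟪u, p v⟫_ℂ :=
  hp.isSymmetric u v

lemma proj_norm_apply_le {p : H →L[ℂ] H} (hp : IsStarProjection p) (v : H) : ‖p v‖ ≤ ‖v‖ := by
  calc ‖p v‖ ≤ ‖p‖ * ‖v‖ := p.le_opNorm v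
    _ ≤ 1 * ‖v‖ := mul_le_mul_of_nonneg_right hp.norm_le (norm_nonneg _)
    _ = ‖v‖ := one_mul _

lemma proj_norm_sq {p : H →L[ℂ] H} (hp : IsStarProjection p) (v : H) :
    (‖p v‖ : ℂ) ^ 2 = ⟪v, p v⟫_ℂ := by
  refine (inner_self_eq_norm_sq_to_K (𝕜 := ℂ) (p v)).symm.trans ?_
  rw [sa_inner hp.isSelfAdjoint, proj_apply_apply hp]

namespace IsPart

variable {e : H →L[ℂ] H} {ι : Type*} [Fintype ι] {c : ι → (H →L[ℂ] H)}

lemma inner_cross (h : IsPart A e c) {i j : ι} (hij : i ≠ j) (u v : H) :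
    ⟪c i u, c j v⟫_ℂ = 0 := by
  rw [sa_inner (h.proj i).isSelfAdjoint, ← op_mul_apply, h.orth i j hij]
  simp

lemma mul_sum_apply [DecidableEq ι] (h : IsPart A e c) (i : ι) (w : ι → H) :
    c i (∑ j, c j (w j)) = c i (w i) := by
  rw [map_sum, Finset.sum_eq_single i]
  · exact proj_apply_apply (h.proj i) _
  · intro j _ hj
    rw [← op_mul_apply, h.orth i j (Ne.symm hj)]
    simp
  · simp

lemma norm_sum_sq (h : IsPart A e c) (w : ι → H) :
    ‖∑ i, c i (w i)‖ ^ 2 = ∑ i, ‖c i (w i)‖ ^ 2 := by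
  classical
  have key : ∀ s : Finset ι, ‖∑ i ∈ s, c i (w i)‖ ^ 2 = ∑ i ∈ s, ‖c i (w i)‖ ^ 2 := by
    intro s
    induction s using Finset.induction with
    | empty => simp
    | insert a s ha ih =>
      rw [Finset.sum_insert ha, Finset.sum_insert ha, ← ih]
      have h0 : ⟪c a (w a), ∑ i ∈ s, c i (w i)⟫_ℂ = 0 := by
        rw [inner_sum]
        refine Finset.sum_eq_zero fun j hj => h.inner_cross ?_ _ _
        intro hh; exact ha (hh ▸ hj)
      have := norm_add_sq_eq_norm_sq_add_norm_sq_of_inner_eq_zero _ _ h0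
      simpa [sq] using this
  exact key Finset.univ

lemma sum_norm_sq (h : IsPart A e c) (v : H) : ∑ i, ‖c i v‖ ^ 2 = ‖e v‖ ^ 2 := by
  rw [← h.norm_sum_sq (fun _ => v), ← h.sum_eq, sum_apply]

lemma sum_apply_eq (h : IsPart A 1 c) (v : H) : ∑ i, c i v = v := by
  rw [← sum_apply, h.sum_eq]; rfl

lemma norm_blockdiag_le (h : IsPart A 1 c) (T : ι → (H →L[ℂ] H)) {C : ℝ} (hC : 0 ≤ C)
    (hT : ∀ i, ‖T i‖ ≤ C) : ‖∑ i, c i * T i * c i‖ ≤ C := by
  refine ContinuousLinearMap.opNorm_le_bound _ hC fun v => ?_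
  have e1 : (∑ i, c i * T i * c i) v = ∑ i, c i (T i (c i v)) := by
    simp [sum_apply]
  have e2 : ‖(∑ i, c i * T i * c i) v‖ ^ 2 ≤ (C * ‖v‖) ^ 2 := by
    rw [e1, h.norm_sum_sq (fun i => T i (c i v)), mul_pow]
    have hv : ‖v‖ ^ 2 = ∑ i, ‖c i v‖ ^ 2 := by rw [h.sum_norm_sq]; rfl
    rw [hv, Finset.mul_sum]
    refine Finset.sum_le_sum fun i _ => ?_
    rw [← mul_pow]
    apply pow_le_pow_left₀ (norm_nonneg _)
    calc ‖c i (T i (c i v))‖ ≤ ‖T i (c i v)‖ := proj_norm_apply_le (h.proj i) _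
      _ ≤ ‖T i‖ * ‖c i v‖ := (T i).le_opNorm _
      _ ≤ C * ‖c i v‖ := mul_le_mul_of_nonneg_right (hT i) (norm_nonneg _)
  exact (pow_le_pow_iff_left₀ (norm_nonneg _) (by positivity) two_ne_zero).1 e2

lemma reindex (h : IsPart A e c) {κ : Type*} [Fintype κ] (f : κ ≃ ι) :
    IsPart A e (c ∘ f) where
  mem i := h.mem _
  proj i := h.proj _
  orth i j hij := h.orth _ _ (f.injective.ne hij)
  sum_eq := by rw [← h.sum_eq]; exact Equiv.sum_comp f c

/-- Common refinement of two partitions. -/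
lemma prod (hA : Set.centralizer (A : Set (H →L[ℂ] H)) = A) (h : IsPart A 1 c)
    {κ : Type*} [Fintype κ] {d : κ → (H →L[ℂ] H)} (h' : IsPart A 1 d) :
    IsPart A 1 (fun p : ι × κ => c p.1 * d p.2) where
  mem p := A.mul_mem (h.mem _) (h'.mem _)
  proj p := (h.proj _).mul (h'.proj _) (comm_of_mem hA (h.mem _) (h'.mem _))
  orth p p' hpp := by
    have hc : Commute (d p.2) (c p'.1) := comm_of_mem hA (h'.mem _) (h.mem _)
    have key : c p.1 * d p.2 * (c p'.1 * d p'.2) = (c p.1 * c p'.1) * (d p.2 * d p'.2) := by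
      rw [mul_assoc, ← mul_assoc (d p.2), hc.eq]
      simp [mul_assoc]
    show c p.1 * d p.2 * (c p'.1 * d p'.2) = 0
    rw [key]
    by_cases h1 : p.1 = p'.1
    · rw [h'.orth p.2 p'.2 (fun h2 => hpp (Prod.ext h1 h2))]; simp
    · rw [h.orth _ _ h1]; simp
  sum_eq := by
    rw [Fintype.sum_prod_type]
    simp [← Finset.mul_sum, h'.sum_eq, h.sum_eq]

/-- Merge the cells of a partition along a map to a finite type. -/
lemma group [DecidableEq ι] (h : IsPart A 1 c) {r : ℕ} (f : ι → Fin r) :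
    IsPart A 1 (fun i => ∑ j ∈ Finset.univ.filter (fun j => f j = i), c j) where
  mem i := sum_mem fun j _ => h.mem j
  proj i := by
    refine ⟨?_, isSelfAdjoint_sum _ (fun j _ => (h.proj j).isSelfAdjoint)⟩
    show _ * _ = _
    rw [Finset.sum_mul]
    refine Finset.sum_congr rfl fun j hj => ?_
    rw [Finset.mul_sum, Finset.sum_eq_single j]
    · exact (h.proj j).isIdempotentElem
    · intro k _ hk; exact h.orth j k (Ne.symm hk)
    · intro hj'; exact absurd hj hj'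
  orth i i' hii := by
    rw [Finset.sum_mul]
    refine Finset.sum_eq_zero fun j hj => ?_
    rw [Finset.mul_sum]
    refine Finset.sum_eq_zero fun k hk => h.orth j k ?_
    rintro rfl
    simp only [Finset.mem_filter] at hj hk
    exact hii (hj.2.symm.trans hk.2)
  sum_eq := by
    rw [Finset.sum_fiberwise Finset.univ f c, h.sum_eq]

end IsPart

lemma isPart_one : IsPart A 1 (fun _ : Fin 1 => (1 : H →L[ℂ] H)) where
  mem _ := A.one_mem
  proj _ := IsStarProjection.one _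
  orth i j hij := absurd (Subsingleton.elim i j) hij
  sum_eq := by simp

lemma isPart_pair {p : H →L[ℂ] H} (hp : p ∈ A) (hp' : IsStarProjection p) :
    IsPart A 1 (![p, 1 - p] : Fin 2 → (H →L[ℂ] H)) where
  mem i := by
    fin_cases i
    · simpa using hp
    · simpa using A.sub_mem A.one_mem hp
  proj i := by
    fin_cases i
    · simpa using hp'
    · simpa using hp'.one_sub
  orth i j hij := by
    fin_cases i <;> fin_cases j <;> simp_all [mul_sub, sub_mul, hp'.isIdempotentElem.eq]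
  sum_eq := by simp [Fin.sum_univ_two]

/-- The pinching by a finite family of projections. -/
def pinch {ι : Type*} [Fintype ι] (c : ι → (H →L[ℂ] H)) (x : H →L[ℂ] H) : H →L[ℂ] H :=
  ∑ i, c i * x * c i

lemma inner_pinch {ι : Type*} [Fintype ι] {e : H →L[ℂ] H} {c : ι → (H →L[ℂ] H)}
    (h : IsPart A e c) (x : H →L[ℂ] H) (u v : H) :
    ⟪u, pinch c x v⟫_ℂ = ∑ i, ⟪c i u, x (c i v)⟫_ℂ := by
  simp [pinch, sum_apply, inner_sum, sa_inner (h.proj _).isSelfAdjoint]

lemma pinch_selfAdjoint {ι : Type*} [Fintype ι] {e : H →L[ℂ] H} {c : ι → (H →L[ℂ] H)}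
    (h : IsPart A e c) {x : H →L[ℂ] H} (hx : IsSelfAdjoint x) : IsSelfAdjoint (pinch c x) := by
  refine isSelfAdjoint_sum _ fun i _ => ?_
  rw [IsSelfAdjoint, star_mul, star_mul, (h.proj i).isSelfAdjoint.star_eq, hx.star_eq, mul_assoc]

lemma norm_pinch_le {ι : Type*} [Fintype ι] {c : ι → (H →L[ℂ] H)}
    (h : IsPart A 1 c) (x : H →L[ℂ] H) : ‖pinch c x‖ ≤ ‖x‖ :=
  h.norm_blockdiag_le (fun _ => x) (norm_nonneg _) (fun _ => le_rfl)

/-- Finite partitions of the identity in `A`. -/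
structure Ptn (A : StarSubalgebra ℂ (H →L[ℂ] H)) where
  n : ℕ
  c : Fin n → (H →L[ℂ] H)
  isPart : IsPart A 1 c

/-- Every cell of `Q` lies below or beside every cell of `P`. -/
def Refines (Q P : Ptn A) : Prop :=
  ∀ (i : Fin Q.n) (j : Fin P.n), P.c j * Q.c i = Q.c i ∨ P.c j * Q.c i = 0

lemma exists_refines (hA : Set.centralizer (A : Set (H →L[ℂ] H)) = A) (P P' : Ptn A) :
    ∃ Q : Ptn A, (∀ i, ∃ j k, Q.c i = P.c j * P'.c k) ∧
      (∀ R : Ptn A, Refines R Q → Refines R P ∧ Refines R P') := by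
  classical
  let f := (Fintype.equivFin (Fin P.n × Fin P'.n)).symm
  refine ⟨⟨_, _, (P.isPart.prod hA P'.isPart).reindex f⟩, fun i => ⟨(f i).1, (f i).2, rfl⟩, ?_⟩
  intro R hR
  have key : ∀ i j k, (P.c j * P'.c k) * R.c i = R.c i ∨ (P.c j * P'.c k) * R.c i = 0 := by
    intro i j k
    have h1 := hR i (f.symm (j, k))
    simp only [Function.comp_apply, Equiv.apply_symm_apply] at h1
    exact h1
  constructor
  · intro i j
    by_cases h0 : ∀ k, (P.c j * P'.c k) * R.c i = 0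
    · right
      have : P.c j * R.c i = ∑ k, (P.c j * P'.c k) * R.c i := by
        rw [← Finset.sum_mul, ← Finset.mul_sum, P'.isPart.sum_eq, mul_one]
      rw [this]; exact Finset.sum_eq_zero fun k _ => h0 k
    · left
      push Not at h0
      obtain ⟨k, hk⟩ := h0
      have hk' := (key i j k).resolve_right hk
      conv_lhs => rw [← hk']
      rw [← mul_assoc, ← mul_assoc, (P.isPart.proj j).isIdempotentElem.eq, hk']
  · intro i k
    by_cases h0 : ∀ j, (P.c j * P'.c k) * R.c i = 0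
    · right
      have : P'.c k * R.c i = ∑ j, (P.c j * P'.c k) * R.c i := by
        rw [← Finset.sum_mul, ← Finset.sum_mul, P.isPart.sum_eq, one_mul]
      rw [this]; exact Finset.sum_eq_zero fun j _ => h0 j
    · left
      push Not at h0
      obtain ⟨j, hj⟩ := h0
      have hj' := (key i j k).resolve_right hj
      have hc : Commute (P'.c k) (P.c j) := comm_of_mem hA (P'.isPart.mem k) (P.isPart.mem j)
      have e3 : P'.c k * (P.c j * P'.c k * R.c i) = P.c j * P'.c k * R.c i := by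
        rw [← mul_assoc, ← mul_assoc, hc.eq, mul_assoc (P.c j),
          (P'.isPart.proj k).isIdempotentElem.eq]
      rwa [hj'] at e3

lemma refines_refl (P : Ptn A) : Refines P P := fun i j => by
  by_cases h : j = i
  · left; rw [h]; exact (P.isPart.proj i).isIdempotentElem
  · right; exact P.isPart.orth j i h

end Vale.Agent.P078
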