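import Vale.Agent.P078.Limit
import Vale.Agent.P078.Colour

/-! So-paving over diffuse maximal abelian algebras: upper and lower bounds. -/

namespace Vale.Agent.P078

open scoped InnerProductSpace
open Filter Topology

variable {H : Type*} [NormedAddCommGroup H] [InnerProductSpace ℂ H] [CompleteSpace H]
variable {A : StarSubalgebra ℂ (H →L[ℂ] H)}

/-- The merged cell of colour `i`. -/
def merge {n r : ℕ} (c : Fin n → (H →L[ℂ] H)) (f : Fin n → Fin r) (i : Fin r) : H →L[ℂ] H :=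
  ∑ j ∈ Finset.univ.filter (fun j => f j = i), c j

lemma inner_merge {n r : ℕ} {c : Fin n → (H →L[ℂ] H)} (hc : IsPart A 1 c) (f : Fin n → Fin r)
    (x : H →L[ℂ] H) (u v : H) :
    ⟪u, pinch (merge c f) x v⟫_ℂ =
      ∑ p : Fin n × Fin n, if f p.1 = f p.2 then ⟪c p.1 u, x (c p.2 v)⟫_ℂ else 0 := by
  have hm : IsPart A 1 (merge c f) := hc.group f
  rw [inner_pinch hm]
  simp only [merge, sum_apply, Finset.sum_filter, map_sum, inner_sum, sum_inner]
  rw [Fintype.sum_prod_type_right, Finset.sum_comm]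
  refine Finset.sum_congr rfl fun j _ => ?_
  rw [Finset.sum_comm]
  refine Finset.sum_congr rfl fun i _ => ?_
  rw [Finset.sum_eq_single (f i)]
  · by_cases h : f i = f j
    · simp [h]
    · simp [h, Ne.symm h]
  · intro b _ hb; simp [Ne.symm hb]
  · simp

lemma sum_pair_le {n : ℕ} {c : Fin n → (H →L[ℂ] H)} (hc : IsPart A 1 c) (x : H →L[ℂ] H)
    (u v : H) {η : ℝ} (hη : 0 ≤ η) (hu : ∀ i, ‖c i u‖ ^ 2 ≤ η) :
    ∑ p : Fin n × Fin n, ‖⟪c p.1 u, x (c p.2 v)⟫_ℂ‖ ^ 2 ≤ η * (‖x‖ ^ 2 * ‖v‖ ^ 2) := by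
  rw [Fintype.sum_prod_type_right]
  calc _ ≤ ∑ j, ∑ i, η * ‖c i (x (c j v))‖ ^ 2 := by
        refine Finset.sum_le_sum fun j _ => Finset.sum_le_sum fun i _ => ?_
        have : ⟪c i u, x (c j v)⟫_ℂ = ⟪c i u, c i (x (c j v))⟫_ℂ := by
          rw [← sa_inner (hc.proj i).isSelfAdjoint, proj_apply_apply (hc.proj i)]
        rw [this]
        calc _ ≤ (‖c i u‖ * ‖c i (x (c j v))‖) ^ 2 :=
              pow_le_pow_left₀ (norm_nonneg _) (norm_inner_le_norm _ _) 2
          _ = ‖c i u‖ ^ 2 * ‖c i (x (c j v))‖ ^ 2 := by ring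
          _ ≤ _ := mul_le_mul_of_nonneg_right (hu i) (sq_nonneg _)
    _ ≤ ∑ j, η * (‖x‖ ^ 2 * ‖c j v‖ ^ 2) := by
        refine Finset.sum_le_sum fun j _ => ?_
        rw [← Finset.mul_sum, hc.sum_norm_sq, ← mul_pow]
        exact mul_le_mul_of_nonneg_left
          (pow_le_pow_left₀ (norm_nonneg _) (x.le_opNorm _) 2) hη
    _ = _ := by rw [← Finset.mul_sum, ← Finset.mul_sum, hc.sum_norm_sq]; rfl

/-- Deviation of a coloured pinching from its mean. -/
lemma inner_dev {n r : ℕ} {c : Fin n → (H →L[ℂ] H)} (hc : IsPart A 1 c)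
    (f : Fin n → Fin r) (x : H →L[ℂ] H) (u v : H) :
    ⟪u, (pinch (merge c f) x - (r:ℂ)⁻¹ • x - (1 - (r:ℂ)⁻¹) • pinch c x) v⟫_ℂ =
      ∑ p : Fin n × Fin n, (gap r p f : ℂ) * ⟪c p.1 u, x (c p.2 v)⟫_ℂ := by
  have hx : ⟪u, x v⟫_ℂ = ∑ p : Fin n × Fin n, ⟪c p.1 u, x (c p.2 v)⟫_ℂ := by
    rw [Fintype.sum_prod_type]
    simp only [← inner_sum, ← sum_inner, ← map_sum, hc.sum_apply_eq]
  have hp : ⟪u, pinch c x v⟫_ℂ =
      ∑ p : Fin n × Fin n, if p.1 = p.2 then ⟪c p.1 u, x (c p.2 v)⟫_ℂ else 0 := by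
    rw [inner_pinch hc, Fintype.sum_prod_type]; simp
  simp only [sub_apply, smul_apply, inner_sub_right, inner_smul_right,
    inner_merge hc, hx, hp, Finset.mul_sum, ← Finset.sum_sub_distrib]
  refine Finset.sum_congr rfl fun p _ => ?_
  by_cases h : p.1 = p.2
  · simp [gap, h]; ring
  · by_cases h' : f p.1 = f p.2 <;> simp [gap, h, h'] <;> ring

lemma compress_norm_le {m : ℕ} (K : Submodule ℂ H) [K.HasOrthogonalProjection]
    (b : OrthonormalBasis (Fin m) ℂ K) (T : H →L[ℂ] H) :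
    ‖K.starProjection * T * K.starProjection‖ ≤ ∑ i, ∑ j, ‖⟪(b i : H), T (b j : H)⟫_ℂ‖ := by
  refine ContinuousLinearMap.opNorm_le_bound _ (by positivity) fun v => ?_
  have hb : ∀ i, ‖(b i : H)‖ = 1 := fun i => b.orthonormal.1 i
  simp only [op_mul_apply, OrthonormalBasis.starProjection_eq_sum_rankOne b, sum_apply,
    InnerProductSpace.rankOne_apply, map_sum, map_smul, inner_sum, Finset.sum_smul, inner_smul_right,
    Finset.sum_mul]
  refine (norm_sum_le _ _).trans (Finset.sum_le_sum fun i _ => ?_)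
  refine (norm_sum_le _ _).trans (Finset.sum_le_sum fun j _ => ?_)
  rw [norm_smul, norm_smul, hb, mul_one, mul_comm]
  refine mul_le_mul_of_nonneg_left ?_ (norm_nonneg _)
  simpa [hb] using norm_inner_le_norm (𝕜 := ℂ) (b j : H) v

/-- Upper bound. -/
theorem soPavable_of_lt (hA : Set.centralizer (A : Set (H →L[ℂ] H)) = A) (hd : Diffuse A)
    {ε : ℝ} {r : ℕ} (hr : 0 < r) (hεr : 1 / (r:ℝ) < ε) {x : H →L[ℂ] H} (hx : IsSelfAdjoint x) :
    SoPavable A x ε r := by
  classical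
  intro F δ hδ
  obtain ⟨U, E, hU, hEA, hEn, hEs, hlim⟩ := exists_limit hA x
  set K : Submodule ℂ H := Submodule.span ℂ (F : Set H)
  have : FiniteDimensional ℂ K := FiniteDimensional.span_of_finite ℂ F.finite_toSet
  set m := Module.finrank ℂ K
  set b := stdOrthonormalBasis ℂ K
  set gapv : ℝ := (ε - 1 / r) * ‖x‖
  by_cases hx0 : x = 0
  · obtain ⟨P, -⟩ := exists_small hA hd (∅ : Finset H) one_pos
    refine ⟨merge P.c (fun _ => ⟨0, hr⟩), 0, 1, fun i => ⟨(P.isPart.group _).mem i,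
      (P.isPart.group _).proj i⟩, (P.isPart.group _).orth, (P.isPart.group _).sum_eq, zero_mem A,
      IsSelfAdjoint.zero _, by simp, IsStarProjection.one _, by simp [hδ], by simp [hx0]⟩
  have hgap : 0 < gapv := mul_pos (by linarith) (norm_pos_iff.2 hx0)
  set κ : ℝ := gapv / (2 * ((m:ℝ) ^ 2 + 1)) with hκ'
  have hκ : 0 < κ := by positivity
  set η : ℝ := κ ^ 2 / (2 * ((m:ℝ) ^ 2 + 1) * (‖x‖ ^ 2 + 1)) with hη'
  have hη : 0 < η := by positivity
  obtain ⟨P0, hP0⟩ := exists_small hA hd (Finset.univ.image fun i => (b i : H)) hη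
  have hev : ∀ᶠ R : Ptn A in (U : Filter (Ptn A)), ∀ i j,
      ‖⟪pinch R.c x (b i : H), (b j : H)⟫_ℂ - ⟪E (b i : H), (b j : H)⟫_ℂ‖ < κ := by
    refine eventually_all.2 fun i => eventually_all.2 fun j => ?_
    have := (hlim (b i : H) (b j : H)).eventually (Metric.ball_mem_nhds _ hκ)
    simpa [dist_eq_norm] using this
  obtain ⟨R, hR, hRE⟩ := ((hU P0).and hev).exists
  have hb : ∀ i, ‖(b i : H)‖ = 1 := fun i => b.orthonormal.1 i
  let M : Fin m → Fin m → Fin R.n × Fin R.n → ℂ :=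
    fun i j p => ⟪R.c p.1 (b i : H), x (R.c p.2 (b j : H))⟫_ℂ
  let D : (Fin R.n → Fin r) → Fin m → Fin m → ℂ :=
    fun f i j => ∑ p, (gap r p f : ℂ) * M i j p
  have : Nonempty (Fin R.n → Fin r) := ⟨fun _ => ⟨0, hr⟩⟩
  obtain ⟨f, -, hf⟩ : ∃ f ∈ (Finset.univ : Finset (Fin R.n → Fin r)),
      ∑ i, ∑ j, ‖D f i j‖ ^ 2 ≤ κ ^ 2 := by
    refine Finset.exists_le_of_sum_le Finset.univ_nonempty ?_
    rw [Finset.sum_comm]
    calc _ ≤ ∑ _i : Fin m, ∑ _j : Fin m,
          2 * (Fintype.card (Fin R.n → Fin r) : ℝ) * (η * ‖x‖ ^ 2) := by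
          refine Finset.sum_le_sum fun i _ => ?_
          rw [Finset.sum_comm]
          refine Finset.sum_le_sum fun j _ => (second_moment_complex hr (M i j)).trans ?_
          refine mul_le_mul_of_nonneg_left ?_ (by positivity)
          have := sum_pair_le R.isPart x (b i : H) (b j : H) hη.le
            (fun k => hP0 R hR k _ (Finset.mem_image_of_mem _ (Finset.mem_univ i)))
          simpa [hb] using this
      _ = (Fintype.card (Fin R.n → Fin r) : ℝ) *
            (κ ^ 2 * (((m:ℝ) ^ 2 * ‖x‖ ^ 2) / ((((m:ℝ) ^ 2 + 1)) * (‖x‖ ^ 2 + 1)))) := by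
          simp only [Finset.sum_const, Finset.card_univ, Fintype.card_fin, nsmul_eq_mul, hη']
          field_simp
      _ ≤ (Fintype.card (Fin R.n → Fin r) : ℝ) * (κ ^ 2 * 1) := by
          gcongr
          rw [div_le_one (by positivity)]
          nlinarith [sq_nonneg (‖x‖), sq_nonneg (m:ℝ), mul_nonneg (sq_nonneg (m:ℝ)) (sq_nonneg ‖x‖)]
      _ = _ := by simp
  have hD : ∀ i j, ‖D f i j‖ ≤ κ := fun i j => by
    refine (pow_le_pow_iff_left₀ (norm_nonneg _) hκ.le two_ne_zero).1 (le_trans ?_ hf)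
    exact le_trans (Finset.single_le_sum (f := fun j => ‖D f i j‖ ^ 2) (fun j _ => sq_nonneg _)
      (Finset.mem_univ j)) (Finset.single_le_sum (f := fun i => ∑ j, ‖D f i j‖ ^ 2)
      (fun i _ => Finset.sum_nonneg fun j _ => sq_nonneg _) (Finset.mem_univ i))
  have hrr : (1:ℝ) ≤ r := by exact_mod_cast hr
  have hc : ‖(1 - (r:ℂ)⁻¹)‖ ≤ 1 := by
    rw [show (1 - (r:ℂ)⁻¹) = (((1 - (r:ℝ)⁻¹) : ℝ) : ℂ) by push_cast; ring, Complex.norm_real,
      Real.norm_eq_abs, abs_le]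
    have h1 : 0 ≤ (r:ℝ)⁻¹ := by positivity
    have h2 : (r:ℝ)⁻¹ ≤ 1 := inv_le_one_of_one_le₀ hrr
    constructor <;> linarith
  refine ⟨merge R.c f, (1 - (r:ℂ)⁻¹) • E, K.starProjection,
    fun i => ⟨(R.isPart.group f).mem i, (R.isPart.group f).proj i⟩, (R.isPart.group f).orth,
    (R.isPart.group f).sum_eq, SMulMemClass.smul_mem _ hEA, ?_, ?_,
    isStarProjection_starProjection, ?_, ?_⟩
  · rw [IsSelfAdjoint, star_smul, (hEs hx).star_eq]
    simp
  · rw [norm_smul]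
    calc _ ≤ 1 * ‖x‖ := mul_le_mul hc hEn (norm_nonneg _) zero_le_one
      _ = ‖x‖ := one_mul _
  · intro ξ hξ
    simp only [sub_apply, ContinuousLinearMap.one_apply]
    rw [Submodule.starProjection_eq_self_iff.2 (Submodule.subset_span hξ)]
    simpa using hδ
  set q := K.starProjection
  have hq : ‖q‖ ≤ 1 := (isStarProjection_starProjection (U := K)).norm_le
  set T := pinch (merge R.c f) x - (r:ℂ)⁻¹ • x - (1 - (r:ℂ)⁻¹) • E with hT'
  have e : q * (pinch (merge R.c f) x - (1 - (r:ℂ)⁻¹) • E) * q =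
      q * T * q + (r:ℂ)⁻¹ • (q * x * q) := by
    rw [hT']
    simp only [mul_sub, sub_mul, mul_smul_comm, smul_mul_assoc]
    abel
  have hT : ∀ i j, ‖⟪(b i : H), T (b j : H)⟫_ℂ‖ ≤ 2 * κ := by
    intro i j
    have : ⟪(b i : H), T (b j : H)⟫_ℂ = D f i j +
        (1 - (r:ℂ)⁻¹) * (⟪pinch R.c x (b i : H), (b j : H)⟫_ℂ - ⟪E (b i : H), (b j : H)⟫_ℂ) := by
      show _ = ∑ p, (gap r p f : ℂ) * M i j p + _
      rw [← inner_dev R.isPart f x, hT', sa_inner (pinch_selfAdjoint R.isPart hx),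
        sa_inner (hEs hx)]
      simp only [sub_apply, smul_apply, inner_sub_right, inner_smul_right]
      ring
    rw [this, two_mul]
    refine (norm_add_le _ _).trans (add_le_add (hD i j) ?_)
    rw [norm_mul]
    calc _ ≤ 1 * κ := mul_le_mul hc (hRE i j).le (norm_nonneg _) zero_le_one
      _ = κ := one_mul κ
  show ‖q * (pinch (merge R.c f) x - (1 - (r:ℂ)⁻¹) • E) * q‖ ≤ ε * ‖x‖
  rw [e]
  calc _ ≤ ‖q * T * q‖ + ‖(r:ℂ)⁻¹ • (q * x * q)‖ := norm_add_le _ _
    _ ≤ (∑ _i : Fin m, ∑ _j : Fin m, 2 * κ) + (1 / r) * ‖x‖ := by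
        refine add_le_add ((compress_norm_le K b T).trans
          (Finset.sum_le_sum fun i _ => Finset.sum_le_sum fun j _ => hT i j)) ?_
        rw [norm_smul, norm_inv, RCLike.norm_natCast, ← one_div]
        refine mul_le_mul_of_nonneg_left ?_ (by positivity)
        calc ‖q * x * q‖ ≤ ‖q‖ * ‖x‖ * ‖q‖ :=
              (norm_mul_le _ _).trans (mul_le_mul_of_nonneg_right (norm_mul_le _ _) (norm_nonneg _))
          _ ≤ 1 * ‖x‖ * 1 := by gcongr
          _ = ‖x‖ := by ring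
    _ = gapv * ((m:ℝ) ^ 2 / ((m:ℝ) ^ 2 + 1)) + (1 / r) * ‖x‖ := by
        simp only [Finset.sum_const, Finset.card_univ, Fintype.card_fin, nsmul_eq_mul, hκ']
        field_simp
    _ ≤ gapv * 1 + (1 / r) * ‖x‖ := by
        gcongr
        rw [div_le_one (by positivity)]; linarith
    _ = ε * ‖x‖ := by simp [gapv]; ring

/-- A random sign. -/
def sgn (b : Bool) : ℝ := if b then 1 else -1

lemma sum_sgn_mul {n : ℕ} (i j : Fin n) :
    ∑ s : Fin n → Bool, sgn (s i) * sgn (s j) =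
      if i = j then (Fintype.card (Fin n → Bool) : ℝ) else 0 := by
  split_ifs with h
  · subst h
    simp [sgn, apply_ite (fun t : ℝ => t * t)]
  · refine sum_eq_zero_of_fiber i _ fun s => ?_
    simp [Ne.symm h, sgn]

/-- Lower bound. -/
theorem le_of_soPavable (hA : Set.centralizer (A : Set (H →L[ℂ] H)) = A) (hd : Diffuse A)
    [Nontrivial H] {ε : ℝ} {r : ℕ} (hε : 0 < ε)
    (hP : ∀ x : H →L[ℂ] H, IsSelfAdjoint x → SoPavable A x ε r) : 1 ≤ 2 * ε * r := by
  classical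
  obtain ⟨ξ, hξ⟩ := exists_norm_eq (E := H) zero_le_one
  have hxs : IsSelfAdjoint (InnerProductSpace.rankOne ℂ ξ ξ) :=
    (ContinuousLinearMap.isSelfAdjoint_iff_isSymmetric).2 fun u v => by
      simp [inner_smul_left, inner_smul_right, mul_comm]
  set x := InnerProductSpace.rankOne ℂ ξ ξ with hx'
  have hxn : ‖x‖ = 1 := by simp [hx', hξ]
  have key : ∀ κ : ℝ, 0 < κ → 1 ≤ (r:ℝ) * (2 * ε + 9 * κ) := by
    intro κ hκ
    obtain ⟨P0, hP0⟩ := exists_small hA hd {ξ} hκ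
    obtain ⟨n, c, hc⟩ : ∃ (n : ℕ) (c : Fin n → (H →L[ℂ] H)),
        IsPart A 1 c ∧ ∀ i, ‖c i ξ‖ ^ 2 ≤ κ :=
      ⟨P0.n, P0.c, P0.isPart, fun i => hP0 P0 (refines_refl P0) i ξ (Finset.mem_singleton_self ξ)⟩
    let u : (Fin n → Bool) → (H →L[ℂ] H) := fun s => ∑ i, (sgn (s i) : ℂ) • c i
    let F : Finset H := insert ξ (Finset.univ.image fun s => u s ξ)
    obtain ⟨p, a, q, hp, horth, hsum, haA, -, han, hq, hF, hbound⟩ := hP x hxs F κ hκ
    have hpp : IsPart A 1 p := ⟨fun i => (hp i).1, fun i => (hp i).2, horth, hsum⟩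
    rw [hxn, mul_one] at hbound
    set T := pinch p x - a
    change ‖q * T * q‖ ≤ ε at hbound
    have hTn : ‖T‖ ≤ 2 := (norm_sub_le _ _).trans (by
      linarith [norm_pinch_le hpp x])
    let V : H → ℝ := fun w => ∑ i, ‖⟪ξ, p i w⟫_ℂ‖ ^ 2
    have hV : ∀ w, ⟪w, pinch p x w⟫_ℂ = (V w : ℂ) := fun w => by
      rw [inner_pinch hpp]
      simp only [V, Complex.ofReal_sum, hx', InnerProductSpace.rankOne_apply, inner_smul_right]
      refine Finset.sum_congr rfl fun i _ => ?_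
      rw [← inner_conj_symm (p i w) ξ, Complex.mul_conj']
      push_cast; rfl
    have usq : ∀ s, u s * u s = 1 := fun s => by
      simp only [u, Finset.sum_mul, Finset.mul_sum, smul_mul_smul_comm]
      rw [← hc.1.sum_eq]
      refine Finset.sum_congr rfl fun i _ => ?_
      rw [Finset.sum_eq_single i]
      · rw [(hc.1.proj i).isIdempotentElem.eq]; cases s i <;> simp [sgn]
      · intro j _ hj; simp [hc.1.orth j i hj]
      · simp
    have usa : ∀ s, IsSelfAdjoint (u s) := fun s => isSelfAdjoint_sum _ fun i _ => by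
      rw [IsSelfAdjoint, star_smul, (hc.1.proj i).isSelfAdjoint.star_eq]; simp
    have umem : ∀ s, u s ∈ A := fun s => sum_mem fun i _ => SMulMemClass.smul_mem _ (hc.1.mem i)
    have uform : ∀ s, ⟪u s ξ, a (u s ξ)⟫_ℂ = ⟪ξ, a ξ⟫_ℂ := fun s => by
      rw [sa_inner (usa s), ← op_mul_apply, ← op_mul_apply, mul_assoc,
        ← mul_assoc (u s) a, (comm_of_mem hA (umem s) haA).eq, mul_assoc, usq, mul_one]
    have unorm : ∀ s, ‖u s ξ‖ = 1 := fun s => by
      rw [← hξ, ← sq_eq_sq₀ (norm_nonneg _) (norm_nonneg _)]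
      have : ⟪u s ξ, u s ξ⟫_ℂ = ⟪ξ, ξ⟫_ℂ := by
        rw [sa_inner (usa s), ← op_mul_apply, usq]; rfl
      rw [inner_self_eq_norm_sq_to_K, inner_self_eq_norm_sq_to_K] at this
      exact RCLike.ofReal_injective (K := ℂ) (by push_cast; exact this)
    have form : ∀ w ∈ F, ‖w‖ = 1 → ‖⟪w, T w⟫_ℂ‖ ≤ ε + 4 * κ := by
      intro w hw hw1
      set d := w - q w with hd'
      have hdn : ‖d‖ ≤ κ := by
        have := (hF w hw).le
        simpa [hd', sub_apply] using this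
      have hqw : ‖q w‖ ≤ 1 := hw1 ▸ proj_norm_apply_le hq w
      have : ⟪w, T w⟫_ℂ = ⟪w, (q * T * q) w⟫_ℂ + (⟪d, T w⟫_ℂ + ⟪q w, T d⟫_ℂ) := by
        rw [op_mul_apply, op_mul_apply, ← sa_inner hq.isSelfAdjoint]
        simp [hd', inner_sub_left, inner_sub_right, map_sub]
      rw [this]
      refine (norm_add_le _ _).trans (add_le_add ?_ ((norm_add_le _ _).trans ?_))
      · refine (norm_inner_le_norm _ _).trans ?_
        rw [hw1, one_mul]
        refine ((q * T * q).le_opNorm w).trans ?_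
        rw [hw1, mul_one]; exact hbound
      · have h1 : ‖⟪d, T w⟫_ℂ‖ ≤ κ * 2 := (norm_inner_le_norm _ _).trans
          (mul_le_mul hdn ((T.le_opNorm w).trans (by rw [hw1, mul_one]; exact hTn))
            (norm_nonneg _) hκ.le)
        have h2 : ‖⟪q w, T d⟫_ℂ‖ ≤ 1 * (2 * κ) := (norm_inner_le_norm _ _).trans
          (mul_le_mul hqw ((T.le_opNorm d).trans (mul_le_mul hTn hdn (norm_nonneg _) (by norm_num)))
            (norm_nonneg _) zero_le_one)
        linarith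
    obtain ⟨s, -, hs⟩ : ∃ s ∈ (Finset.univ : Finset (Fin n → Bool)), V (u s ξ) ≤ κ := by
      refine Finset.exists_le_of_sum_le Finset.univ_nonempty ?_
      have pc : ∀ i j, ⟪ξ, p i (c j ξ)⟫_ℂ = ((‖p i (c j ξ)‖ ^ 2 : ℝ) : ℂ) := fun i j => by
        have hpc := (hpp.proj i).mul (hc.1.proj j) (comm_of_mem hA (hpp.mem i) (hc.1.mem j))
        have := proj_norm_sq hpc ξ
        push_cast
        rw [← op_mul_apply, this]
      have e1 : ∀ s i, ‖⟪ξ, p i (u s ξ)⟫_ℂ‖ ^ 2 =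
          (∑ j, sgn (s j) * ‖p i (c j ξ)‖ ^ 2) ^ 2 := fun s i => by
        rw [← sq_abs (∑ j, _), ← Real.norm_eq_abs, ← Complex.norm_real]
        congr 2
        simp only [u, sum_apply, smul_apply, map_sum, map_smul, inner_sum, inner_smul_right, pc]
        push_cast; rfl
      have pj : ∀ i j, p i (c j ξ) = c j (p i ξ) := fun i j => by
        rw [← op_mul_apply, (comm_of_mem hA (hpp.mem i) (hc.1.mem j)).eq]; rfl
      simp only [V, e1]
      rw [Finset.sum_comm]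
      calc ∑ i, ∑ s : Fin n → Bool, (∑ j, sgn (s j) * ‖p i (c j ξ)‖ ^ 2) ^ 2
          = ∑ i, ∑ j, (Fintype.card (Fin n → Bool) : ℝ) * (‖p i (c j ξ)‖ ^ 2) ^ 2 := by
            refine Finset.sum_congr rfl fun i _ => ?_
            simp only [sq, Finset.sum_mul, Finset.mul_sum]
            rw [Finset.sum_comm]
            refine Finset.sum_congr rfl fun j _ => ?_
            rw [Finset.sum_comm, Finset.sum_eq_single j]
            · calc _ = (∑ s : Fin n → Bool, sgn (s j) * sgn (s j)) *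
                    (‖p i (c j ξ)‖ * ‖p i (c j ξ)‖ * (‖p i (c j ξ)‖ * ‖p i (c j ξ)‖)) := by
                    rw [Finset.sum_mul]; exact Finset.sum_congr rfl fun s _ => by ring
                _ = _ := by rw [sum_sgn_mul, if_pos rfl]
            · intro k _ hk
              calc _ = (∑ s : Fin n → Bool, sgn (s j) * sgn (s k)) *
                    (‖p i (c j ξ)‖ * ‖p i (c j ξ)‖ * (‖p i (c k ξ)‖ * ‖p i (c k ξ)‖)) := by
                    rw [Finset.sum_mul]; exact Finset.sum_congr rfl fun s _ => by ring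
                _ = 0 := by rw [sum_sgn_mul, if_neg (Ne.symm hk), zero_mul]
            · simp
        _ ≤ ∑ i, ∑ j, (Fintype.card (Fin n → Bool) : ℝ) * (κ * ‖c j (p i ξ)‖ ^ 2) := by
            refine Finset.sum_le_sum fun i _ => Finset.sum_le_sum fun j _ => ?_
            refine mul_le_mul_of_nonneg_left ?_ (Nat.cast_nonneg _)
            rw [sq (‖p i (c j ξ)‖ ^ 2)]
            refine mul_le_mul ((pow_le_pow_left₀ (norm_nonneg _)
              (proj_norm_apply_le (hpp.proj i) _) 2).trans (hc.2 j)) (le_of_eq ?_) (sq_nonneg _) hκ.le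
            rw [pj]
        _ = _ := by
            simp only [← Finset.mul_sum, hc.1.sum_norm_sq, ContinuousLinearMap.one_apply,
              hpp.sum_norm_sq, hξ]
            simp
    have hμ : ∀ i, ‖⟪ξ, p i ξ⟫_ℂ‖ = ‖p i ξ‖ ^ 2 := fun i => by
      rw [← proj_norm_sq (hpp.proj i) ξ]; simp
    have hV0 : 1 ≤ (r:ℝ) * V ξ := by
      have h1 : ∑ i, ‖p i ξ‖ ^ 2 = 1 := by rw [hpp.sum_norm_sq]; simp [hξ]
      have := sq_sum_le_card_mul_sum_sq (s := (Finset.univ : Finset (Fin r)))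
        (f := fun i => ‖p i ξ‖ ^ 2)
      rw [h1, one_pow, Finset.card_univ, Fintype.card_fin] at this
      simpa [V, hμ] using this
    have f0 := form ξ (Finset.mem_insert_self _ _) hξ
    have f1 := form (u s ξ)
      (Finset.mem_insert_of_mem (Finset.mem_image_of_mem _ (Finset.mem_univ s))) (unorm s)
    simp only [T, sub_apply, inner_sub_right, hV, uform] at f0 f1
    have : ‖(V ξ : ℂ) - (V (u s ξ) : ℂ)‖ ≤ 2 * ε + 8 * κ := by
      have := norm_sub_le ((V ξ : ℂ) - ⟪ξ, a ξ⟫_ℂ) ((V (u s ξ) : ℂ) - ⟪ξ, a ξ⟫_ℂ)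
      rw [sub_sub_sub_cancel_right] at this
      linarith
    rw [← Complex.ofReal_sub, Complex.norm_real, Real.norm_eq_abs] at this
    have h2 : V ξ ≤ 2 * ε + 9 * κ := by linarith [(abs_le.1 this).2]
    exact hV0.trans (mul_le_mul_of_nonneg_left h2 (Nat.cast_nonneg r))
  have : Tendsto (fun κ : ℝ => (r:ℝ) * (2 * ε + 9 * κ)) (𝓝[>] 0) (𝓝 ((r:ℝ) * (2 * ε + 9 * 0))) :=
    (Continuous.tendsto (by fun_prop) 0).mono_left nhdsWithin_le_nhds
  have := ge_of_tendsto this (eventually_nhdsWithin_of_forall fun κ hκ => key κ hκ)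
  linarith

end Vale.Agent.P078
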