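import Vale.Agent.P078.Basic

/-! In a diffuse algebra every vector can be cut into small pieces. -/

namespace Vale.Agent.P078

open scoped InnerProductSpace
open Filter Topology

variable {H : Type*} [NormedAddCommGroup H] [InnerProductSpace ℂ H] [CompleteSpace H]
variable {A : StarSubalgebra ℂ (H →L[ℂ] H)}

/-- No minimal nonzero projections. -/
def Diffuse (A : StarSubalgebra ℂ (H →L[ℂ] H)) : Prop :=
  ∀ p ∈ A, IsStarProjection p → p ≠ 0 →
    ∃ p' ∈ A, IsStarProjection p' ∧ p' ≠ 0 ∧ p' ≠ p ∧ p * p' = p'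

/-- `e` has a partition all whose cells are small on `ξ`. -/
def Good (A : StarSubalgebra ℂ (H →L[ℂ] H)) (ξ : H) (η : ℝ) (e : H →L[ℂ] H) : Prop :=
  ∃ (n : ℕ) (c : Fin n → (H →L[ℂ] H)), IsPart A e c ∧ ∀ i, ‖c i ξ‖ ^ 2 ≤ η

lemma good_of_small {ξ : H} {η : ℝ} {e : H →L[ℂ] H} (he : e ∈ A) (hp : IsStarProjection e)
    (h : ‖e ξ‖ ^ 2 ≤ η) : Good A ξ η e :=
  ⟨1, fun _ => e, ⟨fun _ => he, fun _ => hp, fun i j hij => absurd (Subsingleton.elim i j) hij,
    by simp⟩, fun _ => h⟩

lemma good_add (hA : Set.centralizer (A : Set (H →L[ℂ] H)) = A) {ξ : H} {η : ℝ}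
    {e e' : H →L[ℂ] H} (horth : e * e' = 0) (h : Good A ξ η e) (h' : Good A ξ η e') :
    Good A ξ η (e + e') := by
  classical
  obtain ⟨n, c, hc, hs⟩ := h
  obtain ⟨m, d, hd, hs'⟩ := h'
  have lec : ∀ i, c i * e = c i := by
    intro i
    rw [← hc.sum_eq, Finset.mul_sum, Finset.sum_eq_single i]
    · exact (hc.proj i).isIdempotentElem
    · intro j _ hj; exact hc.orth i j (Ne.symm hj)
    · simp
  have led : ∀ i, e' * d i = d i := by
    intro i
    rw [← hd.sum_eq, Finset.sum_mul, Finset.sum_eq_single i]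
    · exact (hd.proj i).isIdempotentElem
    · intro j _ hj; exact hd.orth j i hj
    · simp
  have cd : ∀ i j, c i * d j = 0 := by
    intro i j
    rw [← lec i, ← led j, mul_assoc, ← mul_assoc e, horth]
    simp
  refine ⟨n + m, Fin.append c d, ⟨?_, ?_, ?_, ?_⟩, ?_⟩
  · intro i; refine Fin.addCases (fun i => ?_) (fun i => ?_) i <;> simp [hc.mem, hd.mem]
  · intro i; refine Fin.addCases (fun i => ?_) (fun i => ?_) i <;> simp [hc.proj, hd.proj]
  · intro i j hij
    induction i using Fin.addCases with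
    | left i =>
      induction j using Fin.addCases with
      | left j => simp only [Fin.append_left]; exact hc.orth i j (fun h => hij (by rw [h]))
      | right j => simp only [Fin.append_left, Fin.append_right]; exact cd i j
    | right i =>
      induction j using Fin.addCases with
      | left j =>
        simp only [Fin.append_left, Fin.append_right]
        rw [(comm_of_mem hA (hd.mem i) (hc.mem j)).eq]; exact cd j i
      | right j => simp only [Fin.append_right]; exact hd.orth i j (fun h => hij (by rw [h]))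
  · rw [Fin.sum_univ_add]; simp [hc.sum_eq, hd.sum_eq]
  · intro i; induction i using Fin.addCases with
    | left i => simpa using hs i
    | right i => simpa using hs' i

/-- The subspace of fixed vectors of a bounded operator. -/
def fixedSpace (p : H →L[ℂ] H) : Submodule ℂ H := LinearMap.ker (p - 1 : H →L[ℂ] H).toLinearMap

lemma mem_fixedSpace {p : H →L[ℂ] H} {v : H} : v ∈ fixedSpace p ↔ p v = v := by
  simp [fixedSpace, sub_eq_zero]

lemma isClosed_fixedSpace (p : H →L[ℂ] H) : IsClosed (fixedSpace p : Set H) :=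
  ContinuousLinearMap.isClosed_ker (p - 1)

/-- The orthogonal projection on a closed subspace invariant under `A` belongs to `A`. -/
lemma starProjection_mem (hA : Set.centralizer (A : Set (H →L[ℂ] H)) = A) (K : Submodule ℂ H)
    [K.HasOrthogonalProjection] (hK : ∀ g ∈ A, ∀ v ∈ K, g v ∈ K) : K.starProjection ∈ A := by
  refine mem_of_comm hA fun g hg => ?_
  ext v
  show g (K.starProjection v) = K.starProjection (g v)
  refine (Submodule.eq_starProjection_of_mem_of_inner_eq_zero
    (hK g hg _ (K.starProjection_apply_mem v)) fun w hw => ?_).symm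
  rw [← map_sub, ← ContinuousLinearMap.adjoint_inner_right]
  have : ContinuousLinearMap.adjoint g w ∈ K := by
    rw [← ContinuousLinearMap.star_eq_adjoint]
    exact hK _ (star_mem hg) w hw
  exact Submodule.starProjection_inner_eq_zero v _ this

lemma tendsto_sqrt_one_div :
    Tendsto (fun n : ℕ => Real.sqrt (1 / ((n:ℝ) + 1))) atTop (𝓝 0) := by
  have := (Real.continuous_sqrt.tendsto 0).comp tendsto_one_div_add_atTop_nhds_zero_nat
  rw [Real.sqrt_zero] at this
  exact this

lemma exists_minimal_bad (hA : Set.centralizer (A : Set (H →L[ℂ] H)) = A) {ξ : H} {η : ℝ}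
    (hη : 0 < η) (h1 : ¬ Good A ξ η 1) :
    ∃ e ∈ A, IsStarProjection e ∧ ¬ Good A ξ η e ∧
      ∀ e' ∈ A, IsStarProjection e' → e * e' = e' → ¬ Good A ξ η e' → e' = e := by
  classical
  let B := {e : H →L[ℂ] H // e ∈ A ∧ IsStarProjection e ∧ ¬ Good A ξ η e}
  let R : B → B → Prop := fun p q => p.1 * q.1 = q.1
  have trans : ∀ {a b c : B}, R a b → R b c → R a c := by
    intro a b c hab hbc
    show a.1 * c.1 = c.1
    rw [← hbc, ← mul_assoc, show a.1 * b.1 = b.1 from hab]
  have bound : ∀ C : Set B, IsChain R C → ∃ ub, ∀ a ∈ C, R a ub := by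
    intro C hC
    rcases C.eq_empty_or_nonempty with rfl | ⟨p0, hp0⟩
    · exact ⟨⟨1, A.one_mem, IsStarProjection.one _, h1⟩, by simp⟩
    let K : Submodule ℂ H := ⨅ p ∈ C, fixedSpace p.1
    have memK : ∀ v, v ∈ K ↔ ∀ p ∈ C, p.1 v = v := fun v => by
      simp [K, Submodule.mem_iInf, mem_fixedSpace]
    have hcl : IsClosed (K : Set H) := by
      simp only [K, Submodule.coe_iInf]
      exact isClosed_iInter fun p => isClosed_iInter fun _ => isClosed_fixedSpace _
    have : CompleteSpace K := hcl.completeSpace_coe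
    let e := K.starProjection
    have heA : e ∈ A := by
      refine starProjection_mem hA K fun g hg v hv => (memK _).2 fun p hp => ?_
      have := comm_of_mem hA p.2.1 hg
      calc p.1 (g v) = (p.1 * g) v := rfl
        _ = (g * p.1) v := by rw [this.eq]
        _ = g v := by rw [op_mul_apply, (memK v).1 hv p hp]
    have hep : IsStarProjection e := isStarProjection_starProjection
    have pe : ∀ p ∈ C, p.1 * e = e := fun p hp => by
      ext v; exact (memK _).1 (K.starProjection_apply_mem v) p hp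
    have hsub : ∀ p ∈ C, IsStarProjection (p.1 - e) := fun p hp => by
      refine ⟨?_, p.2.2.1.isSelfAdjoint.sub hep.isSelfAdjoint⟩
      have h2 : e * p.1 = e := by rw [(comm_of_mem hA heA p.2.1).eq, pe p hp]
      show (p.1 - e) * (p.1 - e) = p.1 - e
      rw [mul_sub, sub_mul, sub_mul, p.2.2.1.isIdempotentElem.eq, hep.isIdempotentElem.eq, h2,
        pe p hp]
      abel
    by_cases hbad : ¬ Good A ξ η e
    · exact ⟨⟨e, heA, hep, hbad⟩, pe⟩
    exfalso
    push Not at hbad
    have large : ∀ p ∈ C, η < ‖(p.1 - e) ξ‖ ^ 2 := by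
      intro p hp
      by_contra hle
      push Not at hle
      apply p.2.2.2
      have ho : e * (p.1 - e) = 0 := by
        rw [mul_sub, hep.isIdempotentElem.eq, (comm_of_mem hA heA p.2.1).eq, pe p hp, sub_self]
      have := good_add hA ho hbad
        (good_of_small (A.sub_mem p.2.1 heA) (hsub p hp) hle)
      simpa using this
    let μ : B → ℝ := fun p => ‖p.1 ξ‖ ^ 2
    have hbdd : BddBelow (μ '' C) := ⟨0, by rintro _ ⟨p, _, rfl⟩; positivity⟩
    have hne : (μ '' C).Nonempty := ⟨_, p0, hp0, rfl⟩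
    set m := sInf (μ '' C)
    have hex : ∀ n : ℕ, ∃ p ∈ C, μ p < m + 1 / (n + 1) := by
      intro n
      have hpos : (0:ℝ) < 1 / (n + 1) := by positivity
      obtain ⟨_, ⟨p, hp, rfl⟩, hlt⟩ := exists_lt_of_csInf_lt hne (lt_add_of_pos_right m hpos)
      exact ⟨p, hp, hlt⟩
    choose p hp hlt using hex
    have low : ∀ q ∈ C, m ≤ μ q := fun q hq => csInf_le hbdd ⟨q, hq, rfl⟩
    have pyth : ∀ q q' : B, R q q' → ‖q.1 ξ - q'.1 ξ‖ ^ 2 = μ q - μ q' := by
      intro q q' hqq
      have hperp : ⟪q'.1 ξ, q.1 ξ - q'.1 ξ⟫_ℂ = 0 := by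
        rw [inner_sub_right, sa_inner q'.2.2.1.isSelfAdjoint, sa_inner q'.2.2.1.isSelfAdjoint,
          proj_apply_apply q'.2.2.1, ← op_mul_apply, (comm_of_mem hA q'.2.1 q.2.1).eq, hqq,
          sub_self]
      have := norm_add_sq_eq_norm_sq_add_norm_sq_of_inner_eq_zero _ _ hperp
      simp only [add_sub_cancel] at this
      simp only [μ, sq] at *
      linarith
    have near : ∀ n, ∀ q ∈ C, ∀ b, μ q ≤ m + b → 0 ≤ b →
        ‖(p n).1 ξ - q.1 ξ‖ ^ 2 ≤ max (1 / ((n:ℝ) + 1)) b := by
      intro n q hq b hb _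
      rcases eq_or_ne (p n) q with h | h
      · rw [h]; simp only [sub_self, norm_zero]
        have : (0:ℝ) ≤ 1 / ((n:ℝ) + 1) := by positivity
        calc (0:ℝ) ^ 2 = 0 := by norm_num
          _ ≤ _ := this.trans (le_max_left _ _)
      rcases hC (hp n) hq h with h' | h'
      · rw [pyth _ _ h']
        linarith [hlt n, low q hq, le_max_left (1 / ((n:ℝ) + 1)) b]
      · rw [norm_sub_rev, pyth _ _ h']
        linarith [low _ (hp n), le_max_right (1 / ((n:ℝ) + 1)) b]
    have cauchy : CauchySeq fun n => (p n).1 ξ := by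
      refine cauchySeq_of_le_tendsto_0 (fun N : ℕ => Real.sqrt (1 / ((N:ℝ) + 1))) ?_ ?_
      · intro n k N hn hk
        rw [dist_eq_norm]
        apply Real.le_sqrt_of_sq_le
        refine (near n _ (hp k) _ (hlt k).le (by positivity)).trans (max_le ?_ ?_) <;> gcongr
      · exact tendsto_sqrt_one_div
    obtain ⟨v, hv⟩ := cauchySeq_tendsto_of_complete cauchy
    have hvK : v ∈ K := (memK v).2 fun q hq => by
      refine tendsto_nhds_unique (((q.1).continuous.tendsto v).comp hv) ?_
      have hz : Tendsto (fun n => q.1 ((p n).1 ξ) - (p n).1 ξ) atTop (𝓝 0) := by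
        refine squeeze_zero_norm (fun n => ?_) tendsto_sqrt_one_div
        show _ ≤ Real.sqrt (1 / ((n:ℝ) + 1))
        apply Real.le_sqrt_of_sq_le
        rw [← op_mul_apply]
        rcases eq_or_ne q (p n) with h | h
        · rw [h, (p n).2.2.1.isIdempotentElem.eq, sub_self, norm_zero]
          have : (0:ℝ) ≤ 1 / ((n:ℝ) + 1) := by positivity
          calc (0:ℝ) ^ 2 = 0 := by norm_num
            _ ≤ _ := this
        rcases hC hq (hp n) h with h' | h'
        · rw [show q.1 * (p n).1 = (p n).1 from h', sub_self, norm_zero]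
          have : (0:ℝ) ≤ 1 / ((n:ℝ) + 1) := by positivity
          calc (0:ℝ) ^ 2 = 0 := by norm_num
            _ ≤ _ := this
        · rw [(comm_of_mem hA q.2.1 (p n).2.1).eq, show (p n).1 * q.1 = q.1 from h',
            norm_sub_rev, pyth _ _ h']
          linarith [hlt n, low q hq]
      have := hz.add hv
      simp only [sub_add_cancel, zero_add] at this
      exact this
    have hev : e ξ = v := by
      refine Submodule.eq_starProjection_of_mem_of_inner_eq_zero hvK fun w hw => ?_
      have hlim : Tendsto (fun n => ⟪ξ - (p n).1 ξ, w⟫_ℂ) atTop (𝓝 ⟪ξ - v, w⟫_ℂ) :=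
        ((tendsto_const_nhds.sub hv).inner tendsto_const_nhds)
      refine tendsto_nhds_unique hlim ?_
      have : ∀ n, ⟪ξ - (p n).1 ξ, w⟫_ℂ = 0 := fun n => by
        rw [inner_sub_left, sa_inner (p n).2.2.1.isSelfAdjoint, (memK w).1 hw _ (hp n), sub_self]
      simp [this]
    have h0 : Tendsto (fun n => ‖((p n).1 - e) ξ‖ ^ 2) atTop (𝓝 0) := by
      have := ((hv.sub (tendsto_const_nhds (x := v))).norm).pow 2
      simpa [sub_apply, hev] using this
    have := ge_of_tendsto' h0 (fun n => (large _ (hp n)).le)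
    linarith
  obtain ⟨m, hm⟩ := exists_maximal_of_chains_bounded bound trans
  refine ⟨m.1, m.2.1, m.2.2.1, m.2.2.2, fun e' he' hp' hle hbad => ?_⟩
  have h2 : e' * m.1 = m.1 := hm ⟨e', he', hp', hbad⟩ hle
  rw [← hle, (comm_of_mem hA m.2.1 he').eq, h2]

lemma good_one (hA : Set.centralizer (A : Set (H →L[ℂ] H)) = A) (hd : Diffuse A) (ξ : H) {η : ℝ}
    (hη : 0 < η) : Good A ξ η 1 := by
  by_contra h1
  obtain ⟨e, heA, hep, hbad, hmin⟩ := exists_minimal_bad hA hη h1
  have hne : e ≠ 0 := by
    rintro rfl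
    exact hbad (good_of_small heA hep (by simpa using hη.le))
  obtain ⟨p, hpA, hpp, hp0, hpe, hle⟩ := hd e heA hep hne
  have hpe' : p * e = p := by rw [(comm_of_mem hA hpA heA).eq, hle]
  have hsub : IsStarProjection (e - p) := by
    refine ⟨?_, hep.isSelfAdjoint.sub hpp.isSelfAdjoint⟩
    show (e - p) * (e - p) = e - p
    rw [mul_sub, sub_mul, sub_mul, hep.isIdempotentElem.eq, hpp.isIdempotentElem.eq, hle, hpe']
    abel
  have g1 : Good A ξ η p := by
    by_contra h; exact hpe (hmin p hpA hpp hle h)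
  have g2 : Good A ξ η (e - p) := by
    by_contra h
    have := hmin (e - p) (A.sub_mem heA hpA) hsub
      (by rw [mul_sub, hep.isIdempotentElem.eq, hle]) h
    exact hp0 (sub_eq_self.1 this)
  apply hbad
  have := good_add hA (by rw [mul_sub, hpe', hpp.isIdempotentElem.eq, sub_self]) g1 g2
  simpa using this

lemma small_of_refines {R P : Ptn A} (h : Refines R P) {ξ : H} {η : ℝ} (hη : 0 ≤ η)
    (hP : ∀ j, ‖P.c j ξ‖ ^ 2 ≤ η)
    (hA : Set.centralizer (A : Set (H →L[ℂ] H)) = A) (i : Fin R.n) : ‖R.c i ξ‖ ^ 2 ≤ η := by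
  by_cases h0 : ∀ j, P.c j * R.c i = 0
  · have : R.c i = 0 := by
      rw [← one_mul (R.c i), ← P.isPart.sum_eq, Finset.sum_mul]
      exact Finset.sum_eq_zero fun j _ => h0 j
    simp [this, hη]
  · push Not at h0
    obtain ⟨j, hj⟩ := h0
    have hj' := (h i j).resolve_right hj
    rw [← hj', (comm_of_mem hA (P.isPart.mem j) (R.isPart.mem i)).eq, op_mul_apply]
    exact (pow_le_pow_left₀ (norm_nonneg _) (proj_norm_apply_le (R.isPart.proj i) _) 2).trans (hP j)

/-- A partition all of whose refinements are small on finitely many vectors. -/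
lemma exists_small (hA : Set.centralizer (A : Set (H →L[ℂ] H)) = A) (hd : Diffuse A)
    (F : Finset H) {η : ℝ} (hη : 0 < η) :
    ∃ P : Ptn A, ∀ R : Ptn A, Refines R P → ∀ i, ∀ ξ ∈ F, ‖R.c i ξ‖ ^ 2 ≤ η := by
  classical
  induction F using Finset.induction with
  | empty => exact ⟨⟨1, _, isPart_one⟩, by simp⟩
  | insert a s _ ih =>
    obtain ⟨P, hP⟩ := ih
    obtain ⟨n, c, hc, hs⟩ := good_one hA hd a hη
    obtain ⟨Q, _, hQ⟩ := exists_refines hA P ⟨n, c, hc⟩
    refine ⟨Q, fun R hR i ξ hξ => ?_⟩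
    rcases Finset.mem_insert.1 hξ with rfl | hξ
    · exact small_of_refines (hQ R hR).2 hη.le hs hA i
    · exact hP R (hQ R hR).1 i ξ hξ

end Vale.Agent.P078
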